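import Mathlib

namespace Vale.Agent.Results.P322.AllParities
open Finset

/-- The sign `+1` or `-1` coded by a bit (`true` codes `+1`). -/
def sgn (b : Bool) : ℝ := if b then 1 else -1

/-- The character `∏_{i ∈ S} x_i` of the point of `{-1,1}^n` coded by `x`. -/
noncomputable def chi {n : ℕ} (S : Finset (Fin n)) (x : Fin n → Bool) : ℝ := ∏ i ∈ S, sgn (x i)

/-- Probability of the noise pattern `z`: the signs `Z_j = sgn (z j)` are independent and
`Z_j = -1` has probability `ε`. -/
noncomputable def noiseW {n : ℕ} (ε : ℝ) (z : Fin n → Bool) : ℝ :=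
  ∏ j, (if z j then 1 - ε else ε)

/-- Joint probability mass function of the pair `(f(X), ∏_{i ∈ S} Y_i)`, where `X` is uniform on
the cube, `Z` is the independent noise and `Y_i = X_i Z_i`:
`joint f ε S u v = Pr[f(X) = u and ∏_{i ∈ S} X_i Z_i = sgn v]`. -/
noncomputable def joint {n : ℕ} (f : (Fin n → Bool) → Bool) (ε : ℝ) (S : Finset (Fin n))
    (u v : Bool) : ℝ :=
  ∑ x : Fin n → Bool, ∑ z : Fin n → Bool,
    (1 / 2 ^ n : ℝ) * noiseW ε z *
      (if f x = u ∧ ∏ i ∈ S, (sgn (x i) * sgn (z i)) = sgn v then 1 else 0)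

/-- Mutual information in bits of a pair of bits with joint probability mass function `P`
(a summand with `P u v = 0` is `0`). -/
noncomputable def mutualInfo (P : Bool → Bool → ℝ) : ℝ :=
  ∑ u, ∑ v, P u v * Real.logb 2 (P u v / ((∑ v', P u v') * (∑ u', P u' v)))

/-- Binary entropy in bits. -/
noncomputable def h2 (p : ℝ) : ℝ := -p * Real.logb 2 p - (1 - p) * Real.logb 2 (1 - p)

/-! cube toolkit -/

def flip {n : ℕ} (i : Fin n) (x : Fin n → Bool) : Fin n → Bool := Function.update x i (!(x i))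

lemma flip_flip {n : ℕ} (i : Fin n) (x : Fin n → Bool) : flip i (flip i x) = x := by
  funext k
  by_cases h : k = i
  · subst h; simp [flip]
  · simp [flip, h]

def flipEquiv {n : ℕ} (i : Fin n) : (Fin n → Bool) ≃ (Fin n → Bool) where
  toFun := flip i
  invFun := flip i
  left_inv := flip_flip i
  right_inv := flip_flip i

lemma sum_flip {n : ℕ} (i : Fin n) (g : (Fin n → Bool) → ℝ) :
    ∑ x, g (flip i x) = ∑ x, g x := Equiv.sum_comp (flipEquiv i) g

lemma sum_eq_zero_of_flip {n : ℕ} (i : Fin n) (g : (Fin n → Bool) → ℝ)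
    (h : ∀ x, g (flip i x) = - g x) : ∑ x, g x = 0 := by
  have h1 := sum_flip i g
  have h2 : ∑ x, g (flip i x) = - ∑ x, g x := by
    rw [← Finset.sum_neg_distrib]
    exact Finset.sum_congr rfl (fun x _ => h x)
  linarith

lemma sgn_flip_self {n : ℕ} (i : Fin n) (x : Fin n → Bool) : sgn (flip i x i) = - sgn (x i) := by
  simp only [flip, Function.update_self, sgn]
  cases x i <;> simp

lemma sgn_flip_ne {n : ℕ} {i k : Fin n} (h : k ≠ i) (x : Fin n → Bool) :
    sgn (flip i x k) = sgn (x k) := by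
  simp [flip, h]

lemma sgn_sq (b : Bool) : sgn b * sgn b = 1 := by
  cases b <;> simp [sgn]

lemma sgn_cases (b : Bool) : sgn b = 1 ∨ sgn b = -1 := by
  cases b <;> simp [sgn]

lemma chi_flip {n : ℕ} (i : Fin n) (S : Finset (Fin n)) (x : Fin n → Bool) :
    chi S (flip i x) = (if i ∈ S then -1 else 1) * chi S x := by
  unfold chi
  by_cases h : i ∈ S
  · rw [← Finset.mul_prod_erase S _ h, ← Finset.mul_prod_erase S (fun l => sgn (x l)) h,
      sgn_flip_self, if_pos h]
    have : ∏ l ∈ S.erase i, sgn (flip i x l) = ∏ l ∈ S.erase i, sgn (x l) :=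
      Finset.prod_congr rfl (fun l hl => sgn_flip_ne (Finset.ne_of_mem_erase hl) x)
    rw [this]
    ring
  · rw [if_neg h, one_mul]
    refine Finset.prod_congr rfl (fun l hl => sgn_flip_ne ?_ x)
    intro e
    exact h (e ▸ hl)

lemma chi_sq {n : ℕ} (S : Finset (Fin n)) (x : Fin n → Bool) : chi S x * chi S x = 1 := by
  unfold chi
  rw [← Finset.prod_mul_distrib]
  exact Finset.prod_eq_one (fun i _ => sgn_sq _)

lemma chi_cases {n : ℕ} (S : Finset (Fin n)) (x : Fin n → Bool) : chi S x = 1 ∨ chi S x = -1 := by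
  have h := chi_sq S x
  have : (chi S x - 1) * (chi S x + 1) = 0 := by ring_nf; rw [sq]; linarith
  rcases mul_eq_zero.1 this with h | h
  · left; linarith
  · right; linarith

lemma chi_orth {n : ℕ} (S T : Finset (Fin n)) :
    ∑ x : Fin n → Bool, chi S x * chi T x = if S = T then (2 : ℝ) ^ n else 0 := by
  by_cases h : S = T
  · subst h
    rw [if_pos rfl]
    simp [chi_sq]
  · rw [if_neg h]
    have : ∃ i, ¬ (i ∈ S ↔ i ∈ T) := by
      by_contra hc
      push Not at hc
      exact h (Finset.ext hc)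
    obtain ⟨i, hi⟩ := this
    apply sum_eq_zero_of_flip i
    intro x
    rw [chi_flip, chi_flip]
    by_cases h1 : i ∈ S <;> by_cases h2 : i ∈ T
    · exact absurd (iff_of_true h1 h2) hi
    · simp [h1, h2]
    · simp [h1, h2]
    · exact absurd (iff_of_false h1 h2) hi

lemma bessel {Ω ι : Type*} [Fintype Ω] [Fintype ι] [DecidableEq ι] (e : ι → Ω → ℝ) (N : ℝ)
    (hN : 0 < N) (horth : ∀ k l, ∑ x, e k x * e l x = if k = l then N else 0) (F : Ω → ℝ) :
    ∑ k, (∑ x, F x * e k x) ^ 2 ≤ N * ∑ x, F x ^ 2 := by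
  set c : ι → ℝ := fun k => ∑ x, F x * e k x with hc
  set T : Ω → ℝ := fun x => ∑ k, c k * e k x with hT
  have h0 : 0 ≤ ∑ x, (N * F x - T x) ^ 2 := Finset.sum_nonneg (fun x _ => sq_nonneg _)
  have h1 : ∑ x, F x * T x = ∑ k, c k ^ 2 := by
    simp only [hT, Finset.mul_sum]
    rw [Finset.sum_comm]
    refine Finset.sum_congr rfl (fun k _ => ?_)
    rw [sq]
    nth_rewrite 2 [hc]
    simp only
    rw [Finset.mul_sum]
    refine Finset.sum_congr rfl (fun x _ => ?_)
    ring
  have h2 : ∑ x, T x * T x = N * ∑ k, c k ^ 2 := by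
    have : ∀ x, T x * T x = ∑ k, ∑ l, (c k * c l) * (e k x * e l x) := by
      intro x
      simp only [hT]
      rw [Finset.sum_mul_sum]
      refine Finset.sum_congr rfl (fun k _ => Finset.sum_congr rfl (fun l _ => ?_))
      ring
    simp only [this]
    rw [Finset.sum_comm]
    rw [Finset.mul_sum]
    refine Finset.sum_congr rfl (fun k _ => ?_)
    rw [Finset.sum_comm]
    have : ∀ l, ∑ x, (c k * c l) * (e k x * e l x) = (c k * c l) * (if k = l then N else 0) := by
      intro l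
      rw [← Finset.mul_sum, horth]
    simp only [this]
    simp
    ring
  have h3 : ∑ x, (N * F x - T x) ^ 2 = N ^ 2 * ∑ x, F x ^ 2 - 2 * N * ∑ x, F x * T x
      + ∑ x, T x * T x := by
    rw [Finset.mul_sum, Finset.mul_sum, ← Finset.sum_sub_distrib, ← Finset.sum_add_distrib]
    refine Finset.sum_congr rfl (fun x _ => ?_)
    ring
  rw [h3, h1, h2] at h0
  have h4 : 0 ≤ N * (N * ∑ x, F x ^ 2 - ∑ k, c k ^ 2) := by nlinarith
  have := nonneg_of_mul_nonneg_right h4 hN
  linarith

lemma noise_chi {n : ℕ} (ε : ℝ) (S : Finset (Fin n)) :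
    ∑ z : Fin n → Bool, noiseW ε z * chi S z = (1 - 2 * ε) ^ S.card := by
  have h1 : ∀ z : Fin n → Bool, noiseW ε z * chi S z
      = ∏ j, ((if z j then 1 - ε else ε) * (if j ∈ S then sgn (z j) else 1)) := by
    intro z
    rw [Finset.prod_mul_distrib, Finset.prod_ite_mem, Finset.univ_inter]
    rfl
  simp only [h1]
  have h2 := Finset.prod_univ_sum (fun _ : Fin n => (Finset.univ : Finset Bool))
    (fun j b => ((if b then 1 - ε else ε) * (if j ∈ S then sgn b else 1) : ℝ))
  rw [Fintype.piFinset_univ] at h2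
  rw [← h2]
  have h3 : ∀ j : Fin n, ∑ b : Bool, ((if b then 1 - ε else ε) * (if j ∈ S then sgn b else 1) : ℝ)
      = if j ∈ S then (1 - 2 * ε) else 1 := by
    intro j
    rw [Fintype.sum_bool]
    by_cases hj : j ∈ S
    · simp [hj, sgn]; ring
    · simp [hj]
  simp only [h3]
  rw [Finset.prod_ite_mem, Finset.univ_inter, Finset.prod_const]


noncomputable def G (u : ℝ) : ℝ := ((1 + u) * Real.log (1 + u) + (1 - u) * Real.log (1 - u)) / 2

noncomputable def A (u : ℝ) : ℝ := (Real.log (1 + u) - Real.log (1 - u)) / 2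

lemma G_neg (u : ℝ) : G (-u) = G u := by
  unfold G
  rw [sub_neg_eq_add, ← sub_eq_add_neg]
  ring

lemma G_zero : G 0 = 0 := by simp [G]

lemma mul_log_ge {t : ℝ} (ht : 0 ≤ t) : t - 1 ≤ t * Real.log t := by
  rcases ht.eq_or_lt with h | h
  · subst h; simp
  · have := Real.one_sub_inv_le_log_of_pos h
    have h2 : t * (1 - t⁻¹) ≤ t * Real.log t := mul_le_mul_of_nonneg_left this h.le
    have h3 : t * (1 - t⁻¹) = t - 1 := by field_simp
    linarith

lemma G_nonneg {u : ℝ} (h1 : -1 ≤ u) (h2 : u ≤ 1) : 0 ≤ G u := by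
  unfold G
  have a := mul_log_ge (t := 1 + u) (by linarith)
  have b := mul_log_ge (t := 1 - u) (by linarith)
  linarith

lemma G_cont : Continuous G := by
  unfold G
  have h := Real.continuous_mul_log
  have h1 : Continuous (fun u : ℝ => (1 + u) * Real.log (1 + u)) :=
    h.comp (continuous_const.add continuous_id)
  have h2 : Continuous (fun u : ℝ => (1 - u) * Real.log (1 - u)) :=
    h.comp (continuous_const.sub continuous_id)
  exact (h1.add h2).div_const 2

lemma G_deriv {u : ℝ} (h1 : -1 < u) (h2 : u < 1) : HasDerivAt G (A u) u := by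
  have ha : HasDerivAt (fun u : ℝ => (1 + u) * Real.log (1 + u)) ((Real.log (1 + u) + 1) * 1) u := by
    have := Real.hasDerivAt_mul_log (x := 1 + u) (by linarith)
    exact HasDerivAt.comp u this ((hasDerivAt_id u).const_add 1)
  have hb : HasDerivAt (fun u : ℝ => (1 - u) * Real.log (1 - u)) ((Real.log (1 - u) + 1) * (-1)) u := by
    have := Real.hasDerivAt_mul_log (x := 1 - u) (by linarith)
    exact HasDerivAt.comp u this ((hasDerivAt_id u).const_sub 1)
  have := (ha.add hb).div_const 2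
  have h5 : HasDerivAt G (((Real.log (1 + u) + 1) * 1 + (Real.log (1 - u) + 1) * -1) / 2) u := this
  refine h5.congr_deriv ?_
  unfold A
  ring

lemma A_deriv {u : ℝ} (h1 : -1 < u) (h2 : u < 1) : HasDerivAt A (1 / (1 - u ^ 2)) u := by
  have ha : HasDerivAt (fun u : ℝ => Real.log (1 + u)) ((1 + u)⁻¹ * 1) u := by
    have := Real.hasDerivAt_log (x := 1 + u) (by linarith)
    exact HasDerivAt.comp u this ((hasDerivAt_id u).const_add 1)
  have hb : HasDerivAt (fun u : ℝ => Real.log (1 - u)) ((1 - u)⁻¹ * (-1)) u := by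
    have := Real.hasDerivAt_log (x := 1 - u) (by linarith)
    exact HasDerivAt.comp u this ((hasDerivAt_id u).const_sub 1)
  have := (ha.sub hb).div_const 2
  have h5 : HasDerivAt A (((1 + u)⁻¹ * 1 - (1 - u)⁻¹ * -1) / 2) u := this
  refine h5.congr_deriv ?_
  have e1 : (1 + u) ≠ 0 := by linarith
  have e2 : (1 - u) ≠ 0 := by linarith
  have e3 : (1 - u ^ 2) ≠ 0 := by
    have : 1 - u ^ 2 = (1 + u) * (1 - u) := by ring
    rw [this]; exact mul_ne_zero e1 e2
  field_simp
  ring

lemma A_zero : A 0 = 0 := by simp [A]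

lemma A_scale {l x : ℝ} (hl0 : 0 ≤ l) (hl1 : l ≤ 1) (hx0 : 0 ≤ x) (hx1 : x < 1) :
    A (l * x) ≤ l * A x := by
  have hlx : ∀ t : ℝ, 0 ≤ t → t < 1 → l * t < 1 ∧ -1 < l * t := by
    intro t ht0 ht1
    constructor
    · nlinarith
    · have : 0 ≤ l * t := mul_nonneg hl0 ht0
      linarith
  have hd : ∀ t : ℝ, 0 ≤ t → t < 1 →
      HasDerivAt (fun t => l * A t - A (l * t)) (l * (1 / (1 - t ^ 2)) - (1 / (1 - (l * t) ^ 2)) * l) t := by
    intro t ht0 ht1
    have h1 := (A_deriv (u := t) (by linarith) ht1).const_mul l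
    have h2 : HasDerivAt (fun t => A (l * t)) ((1 / (1 - (l * t) ^ 2)) * l) t := by
      have h3 := A_deriv (u := l * t) (hlx t ht0 ht1).2 (hlx t ht0 ht1).1
      have h4 : HasDerivAt (fun t : ℝ => l * t) l t := by
        simpa using (hasDerivAt_id t).const_mul l
      exact HasDerivAt.comp t h3 h4
    exact h1.sub h2
  have hmono : MonotoneOn (fun t => l * A t - A (l * t)) (Set.Ico 0 1) := by
    apply monotoneOn_of_deriv_nonneg (convex_Ico 0 1)
    · intro t ht
      exact (hd t ht.1 ht.2).continuousAt.continuousWithinAt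
    · intro t ht
      rw [interior_Ico] at ht
      exact (hd t ht.1.le ht.2).differentiableAt.differentiableWithinAt
    · intro t ht
      rw [interior_Ico] at ht
      rw [(hd t ht.1.le ht.2).deriv]
      have ht0 := ht.1
      have ht1 := ht.2
      have p1 : 0 < 1 - t ^ 2 := by nlinarith
      have hlt : (l * t) ^ 2 ≤ t ^ 2 := by
        have : l * t ≤ t := by nlinarith
        have h0 : 0 ≤ l * t := mul_nonneg hl0 ht0.le
        nlinarith
      have p2 : 0 < 1 - (l * t) ^ 2 := by linarith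
      have : 1 / (1 - (l * t) ^ 2) ≤ 1 / (1 - t ^ 2) :=
        one_div_le_one_div_of_le p1 (by linarith)
      nlinarith
  have := hmono (Set.mem_Ico.2 ⟨le_refl 0, by norm_num⟩) (Set.mem_Ico.2 ⟨hx0, hx1⟩) hx0
  simp only [mul_zero, A_zero, sub_zero] at this
  linarith

lemma G_scale {l x : ℝ} (hl0 : 0 ≤ l) (hl1 : l ≤ 1) (hx0 : 0 ≤ x) (hx1 : x ≤ 1) :
    G (l * x) ≤ l ^ 2 * G x := by
  have hlx : ∀ t : ℝ, 0 ≤ t → t < 1 → l * t < 1 ∧ -1 < l * t := by
    intro t ht0 ht1
    constructor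
    · nlinarith
    · have : 0 ≤ l * t := mul_nonneg hl0 ht0
      linarith
  have hd : ∀ t : ℝ, 0 ≤ t → t < 1 →
      HasDerivAt (fun t => l ^ 2 * G t - G (l * t)) (l ^ 2 * A t - A (l * t) * l) t := by
    intro t ht0 ht1
    have h1 := (G_deriv (u := t) (by linarith) ht1).const_mul (l ^ 2)
    have h2 : HasDerivAt (fun t => G (l * t)) (A (l * t) * l) t := by
      have h3 := G_deriv (u := l * t) (hlx t ht0 ht1).2 (hlx t ht0 ht1).1
      have h4 : HasDerivAt (fun t : ℝ => l * t) l t := by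
        simpa using (hasDerivAt_id t).const_mul l
      exact HasDerivAt.comp t h3 h4
    exact h1.sub h2
  have hmono : MonotoneOn (fun t => l ^ 2 * G t - G (l * t)) (Set.Icc 0 1) := by
    apply monotoneOn_of_deriv_nonneg (convex_Icc 0 1)
    · apply Continuous.continuousOn
      exact (continuous_const.mul G_cont).sub (G_cont.comp (continuous_const.mul continuous_id))
    · intro t ht
      rw [interior_Icc] at ht
      exact (hd t ht.1.le ht.2).differentiableAt.differentiableWithinAt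
    · intro t ht
      rw [interior_Icc] at ht
      rw [(hd t ht.1.le ht.2).deriv]
      have := A_scale hl0 hl1 ht.1.le ht.2
      nlinarith
  have := hmono (Set.mem_Icc.2 ⟨le_refl 0, by norm_num⟩) (Set.mem_Icc.2 ⟨hx0, hx1⟩) hx0
  simp only [mul_zero, G_zero, sub_zero] at this
  linarith


/-! probabilities -/

noncomputable def ind {n : ℕ} (f : (Fin n → Bool) → Bool) (u : Bool) (x : Fin n → Bool) : ℝ :=
  if f x = u then 1 else 0

noncomputable def pr {n : ℕ} (f : (Fin n → Bool) → Bool) (u : Bool) : ℝ :=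
  ∑ x, (1 / 2 ^ n : ℝ) * ind f u x

noncomputable def co {n : ℕ} (f : (Fin n → Bool) → Bool) (u : Bool) (S : Finset (Fin n)) : ℝ :=
  ∑ x, (1 / 2 ^ n : ℝ) * (ind f u x * chi S x)

lemma ind_eq {t : ℝ} (ht : t = 1 ∨ t = -1) (v : Bool) :
    (if t = sgn v then (1 : ℝ) else 0) = (1 + t * sgn v) / 2 := by
  rcases ht with h | h <;> subst h <;> cases v <;> simp [sgn] <;> norm_num

lemma joint_eq {n : ℕ} (f : (Fin n → Bool) → Bool) (ε : ℝ) (S : Finset (Fin n)) (u v : Bool) :
    joint f ε S u v = (pr f u + (1 - 2 * ε) ^ S.card * co f u S * sgn v) / 2 := by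
  unfold joint
  have h1 : ∀ x : Fin n → Bool, ∑ z : Fin n → Bool,
      (1 / 2 ^ n : ℝ) * noiseW ε z *
        (if f x = u ∧ ∏ i ∈ S, (sgn (x i) * sgn (z i)) = sgn v then 1 else 0)
      = (1 / 2 ^ n : ℝ) * ind f u x * ((1 + chi S x * (1 - 2 * ε) ^ S.card * sgn v) / 2) := by
    intro x
    have h2 : ∀ z : Fin n → Bool, (1 / 2 ^ n : ℝ) * noiseW ε z *
        (if f x = u ∧ ∏ i ∈ S, (sgn (x i) * sgn (z i)) = sgn v then 1 else 0)
        = (1 / 2 ^ n : ℝ) * ind f u x / 2 * (noiseW ε z * chi ∅ z)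
          + (1 / 2 ^ n : ℝ) * ind f u x / 2 * chi S x * sgn v * (noiseW ε z * chi S z) := by
      intro z
      have h3 : ∏ i ∈ S, (sgn (x i) * sgn (z i)) = chi S x * chi S z := by
        rw [Finset.prod_mul_distrib]; rfl
      have h4 : chi S x * chi S z = 1 ∨ chi S x * chi S z = -1 := by
        rcases chi_cases S x with a | a <;> rcases chi_cases S z with b | b <;> rw [a, b] <;> simp
      have h5 : (if f x = u ∧ ∏ i ∈ S, (sgn (x i) * sgn (z i)) = sgn v then (1 : ℝ) else 0)
          = ind f u x * (if chi S x * chi S z = sgn v then (1 : ℝ) else 0) := by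
        rw [h3]
        unfold ind
        by_cases a : f x = u <;> by_cases b : chi S x * chi S z = sgn v <;> simp [a, b]
      rw [h5, ind_eq h4]
      have h6 : chi (∅ : Finset (Fin n)) z = 1 := by simp [chi]
      rw [h6]
      ring
    simp only [h2]
    rw [Finset.sum_add_distrib, ← Finset.mul_sum, ← Finset.mul_sum, noise_chi, noise_chi]
    simp
    ring
  simp only [h1]
  unfold pr co
  rw [Finset.mul_sum, Finset.sum_mul, ← Finset.sum_add_distrib, Finset.sum_div]
  refine Finset.sum_congr rfl (fun x _ => ?_)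
  ring

lemma ind_nonneg {n : ℕ} (f : (Fin n → Bool) → Bool) (u : Bool) (x : Fin n → Bool) :
    0 ≤ ind f u x := by
  unfold ind; split_ifs <;> norm_num

lemma ind_sq {n : ℕ} (f : (Fin n → Bool) → Bool) (u : Bool) (x : Fin n → Bool) :
    ind f u x ^ 2 = ind f u x := by
  unfold ind; split_ifs <;> norm_num

lemma pr_nonneg {n : ℕ} (f : (Fin n → Bool) → Bool) (u : Bool) : 0 ≤ pr f u := by
  unfold pr
  exact Finset.sum_nonneg (fun x _ => mul_nonneg (by positivity) (ind_nonneg f u x))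

lemma co_abs_le {n : ℕ} (f : (Fin n → Bool) → Bool) (u : Bool) (S : Finset (Fin n)) :
    |co f u S| ≤ pr f u := by
  unfold co pr
  refine (Finset.abs_sum_le_sum_abs _ _).trans (Finset.sum_le_sum (fun x _ => ?_))
  rw [abs_mul, abs_mul, abs_of_nonneg (by positivity : (0 : ℝ) ≤ 1 / 2 ^ n),
    abs_of_nonneg (ind_nonneg f u x)]
  have : |chi S x| = 1 := by
    rcases chi_cases S x with a | a <;> rw [a] <;> simp
  rw [this, mul_one]

lemma co_empty {n : ℕ} (f : (Fin n → Bool) → Bool) (u : Bool) : co f u ∅ = pr f u := by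
  unfold co pr
  simp [chi]

lemma sum_pr {n : ℕ} (f : (Fin n → Bool) → Bool) : ∑ u, pr f u = 1 := by
  unfold pr
  rw [Finset.sum_comm]
  have : ∀ x : Fin n → Bool, ∑ u : Bool, (1 / 2 ^ n : ℝ) * ind f u x = 1 / 2 ^ n := by
    intro x
    rw [Fintype.sum_bool]
    unfold ind
    cases f x <;> simp
  simp only [this]
  simp

lemma sum_co {n : ℕ} (f : (Fin n → Bool) → Bool) {S : Finset (Fin n)} (hS : S.Nonempty) :
    ∑ u, co f u S = 0 := by
  unfold co
  rw [Finset.sum_comm]
  have : ∀ x : Fin n → Bool, ∑ u : Bool, (1 / 2 ^ n : ℝ) * (ind f u x * chi S x)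
      = (1 / 2 ^ n : ℝ) * (chi S x * chi ∅ x) := by
    intro x
    rw [Fintype.sum_bool]
    unfold ind
    cases f x <;> simp [chi]
  simp only [this]
  rw [← Finset.mul_sum, chi_orth, if_neg hS.ne_empty, mul_zero]

lemma sum_co_sq {n : ℕ} (f : (Fin n → Bool) → Bool) (u : Bool) :
    ∑ S ∈ Finset.univ.filter (fun S : Finset (Fin n) => S.Nonempty), co f u S ^ 2
      ≤ pr f u - pr f u ^ 2 := by
  have hb := bessel (fun (S : Finset (Fin n)) (x : Fin n → Bool) => chi S x) ((2 : ℝ) ^ n)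
    (by positivity) (fun S T => chi_orth S T) (ind f u)
  have h1 : ∀ S : Finset (Fin n), ∑ x, ind f u x * chi S x = 2 ^ n * co f u S := by
    intro S
    unfold co
    rw [← Finset.mul_sum]
    field_simp
  have h2 : ∑ x, ind f u x ^ 2 = 2 ^ n * pr f u := by
    unfold pr
    rw [← Finset.mul_sum]
    simp only [ind_sq]
    field_simp
  simp only [h1] at hb
  rw [h2] at hb
  have h3 : ∑ S : Finset (Fin n), co f u S ^ 2 ≤ pr f u := by
    have h4 : ∑ S : Finset (Fin n), (2 ^ n * co f u S) ^ 2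
        = (2 ^ n * 2 ^ n) * ∑ S : Finset (Fin n), co f u S ^ 2 := by
      rw [Finset.mul_sum]
      refine Finset.sum_congr rfl (fun S _ => ?_)
      ring
    rw [h4, ← mul_assoc] at hb
    exact le_of_mul_le_mul_left hb (by positivity)
  have h5 : ∑ S : Finset (Fin n), co f u S ^ 2
      = co f u ∅ ^ 2 + ∑ S ∈ Finset.univ.filter (fun S : Finset (Fin n) => S.Nonempty), co f u S ^ 2 := by
    rw [← Finset.sum_filter_add_sum_filter_not Finset.univ (fun S : Finset (Fin n) => S.Nonempty)]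
    rw [add_comm]
    congr 1
    have : Finset.univ.filter (fun S : Finset (Fin n) => ¬ S.Nonempty) = {∅} := by
      ext S
      simp [Finset.not_nonempty_iff_eq_empty]
    rw [this, Finset.sum_singleton]
  rw [h5, co_empty] at h3
  linarith


lemma term_bound {p a ρ : ℝ} {k : ℕ} (hp : 0 < p) (ha : |a| ≤ p) (h0 : 0 ≤ ρ) (h1 : ρ ≤ 1)
    (hk : 1 ≤ k) : p * G (ρ ^ k * a / p) ≤ a ^ 2 / p * G ρ := by
  obtain ⟨m, rfl⟩ : ∃ m, k = m + 1 := ⟨k - 1, by omega⟩
  set l : ℝ := ρ ^ m * |a| / p with hl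
  have hm0 : 0 ≤ ρ ^ m := pow_nonneg h0 m
  have hm1 : ρ ^ m ≤ 1 := pow_le_one₀ h0 h1
  have hl0 : 0 ≤ l := by positivity
  have hq : |a| / p ≤ 1 := (div_le_one hp).2 ha
  have hq0 : 0 ≤ |a| / p := by positivity
  have hl1 : l ≤ |a| / p := by
    have : l = ρ ^ m * (|a| / p) := by rw [hl]; ring
    rw [this]
    nlinarith
  have hG : G (ρ ^ (m + 1) * a / p) = G (l * ρ) := by
    rcases le_total 0 a with h | h
    · rw [hl, abs_of_nonneg h]
      congr 1
      ring
    · rw [hl, abs_of_nonpos h, ← G_neg]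
      congr 1
      ring
  have hs := G_scale hl0 (hl1.trans hq) h0 h1
  have hGn := G_nonneg (u := ρ) (by linarith) h1
  have hl2 : l ^ 2 ≤ (|a| / p) ^ 2 := by nlinarith
  have h3 : (|a| / p) ^ 2 = a ^ 2 / p ^ 2 := by rw [div_pow, sq_abs]
  rw [hG]
  have h4 : G (l * ρ) ≤ a ^ 2 / p ^ 2 * G ρ := by
    rw [← h3]
    nlinarith
  have h5 : p * G (l * ρ) ≤ p * (a ^ 2 / p ^ 2 * G ρ) := mul_le_mul_of_nonneg_left h4 hp.le
  have h6 : p * (a ^ 2 / p ^ 2 * G ρ) = a ^ 2 / p * G ρ := by field_simp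
  linarith

lemma row_sum {n : ℕ} (f : (Fin n → Bool) → Bool) (ε : ℝ) (S : Finset (Fin n)) (u : Bool) :
    ∑ v, joint f ε S u v = pr f u := by
  rw [Fintype.sum_bool, joint_eq, joint_eq]
  simp [sgn]
  ring

lemma col_sum {n : ℕ} (f : (Fin n → Bool) → Bool) (ε : ℝ) {S : Finset (Fin n)} (hS : S.Nonempty)
    (v : Bool) : ∑ u, joint f ε S u v = 1 / 2 := by
  simp only [joint_eq]
  rw [← Finset.sum_div, Finset.sum_add_distrib, sum_pr, ← Finset.sum_mul, ← Finset.mul_sum,
    sum_co f hS]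
  simp

lemma row_bound {n : ℕ} (f : (Fin n → Bool) → Bool) {ε : ℝ} (h0 : 0 ≤ ε) (h1 : ε ≤ 1 / 2)
    {S : Finset (Fin n)} (hS : S.Nonempty) (u : Bool) :
    ∑ v, joint f ε S u v * Real.log (joint f ε S u v / (pr f u * (1 / 2)))
      ≤ co f u S ^ 2 / pr f u * G (1 - 2 * ε) := by
  rcases (pr_nonneg f u).eq_or_lt with hp | hp
  · have hc : co f u S = 0 := by
      have := co_abs_le f u S
      rw [← hp] at this
      exact abs_eq_zero.1 (le_antisymm this (abs_nonneg _))
    simp [joint_eq, ← hp, hc]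
  · have hb := term_bound (k := S.card) hp (co_abs_le f u S) (by linarith : (0 : ℝ) ≤ 1 - 2 * ε)
      (by linarith) (Finset.card_pos.2 hS)
    refine le_trans (le_of_eq ?_) hb
    rw [Fintype.sum_bool, joint_eq, joint_eq]
    set p := pr f u
    set a := co f u S
    set r := (1 - 2 * ε) ^ S.card
    have e1 : (p + r * a * sgn true) / 2 / (p * (1 / 2)) = 1 + r * a / p := by
      simp only [sgn, if_true]
      field_simp
    have e2 : (p + r * a * sgn false) / 2 / (p * (1 / 2)) = 1 - r * a / p := by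
      simp only [sgn]
      field_simp
      simp
      ring
    rw [e1, e2]
    unfold G
    have hw : r * a = (r * a / p) * p := by field_simp
    set w := r * a / p
    generalize Real.log (1 + w) = L1
    generalize Real.log (1 - w) = L2
    have s1 : sgn true = 1 := by simp [sgn]
    have s2 : sgn false = -1 := by simp [sgn]
    rw [s1, s2, hw]
    ring

lemma G_eq {ε : ℝ} (h0 : 0 ≤ ε) (h1 : ε ≤ 1 / 2) : G (1 - 2 * ε) / Real.log 2 = 1 - h2 ε := by
  have hl : Real.log 2 ≠ 0 := (Real.log_pos (by norm_num)).ne'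
  have ha : (1 + (1 - 2 * ε)) = 2 * (1 - ε) := by ring
  have hb : (1 - (1 - 2 * ε)) = 2 * ε := by ring
  unfold G h2 Real.logb
  rw [ha, hb, Real.log_mul (by norm_num) (by linarith)]
  rcases h0.eq_or_lt with h | h
  · subst h
    simp
    field_simp
    norm_num
  · rw [Real.log_mul (by norm_num) h.ne']
    field_simp
    ring

lemma mi_eq {n : ℕ} (f : (Fin n → Bool) → Bool) (ε : ℝ) {S : Finset (Fin n)} (hS : S.Nonempty) :
    mutualInfo (joint f ε S)
      = (∑ u, ∑ v, joint f ε S u v * Real.log (joint f ε S u v / (pr f u * (1 / 2)))) / Real.log 2 := by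
  unfold mutualInfo
  rw [Finset.sum_div]
  refine Finset.sum_congr rfl (fun u _ => ?_)
  rw [Finset.sum_div]
  refine Finset.sum_congr rfl (fun v _ => ?_)
  rw [row_sum, col_sum f ε hS]
  unfold Real.logb
  ring

theorem main {n : ℕ} (f : (Fin n → Bool) → Bool) {ε : ℝ} (h0 : 0 ≤ ε) (h1 : ε ≤ 1 / 2)
    (C : Finset (Finset (Fin n))) (hC : ∀ S ∈ C, S.Nonempty) :
    ∑ S ∈ C, mutualInfo (joint f ε S) ≤ 1 - h2 ε := by
  have hl : 0 < Real.log 2 := Real.log_pos (by norm_num)
  have hG := G_nonneg (u := 1 - 2 * ε) (by linarith) (by linarith)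
  rw [← G_eq h0 h1]
  have h2 : ∑ S ∈ C, mutualInfo (joint f ε S)
      ≤ ∑ S ∈ C, (∑ u, co f u S ^ 2 / pr f u * G (1 - 2 * ε)) / Real.log 2 := by
    refine Finset.sum_le_sum (fun S hS => ?_)
    rw [mi_eq f ε (hC S hS)]
    refine div_le_div_of_nonneg_right ?_ hl.le
    exact Finset.sum_le_sum (fun u _ => row_bound f h0 h1 (hC S hS) u)
  refine h2.trans ?_
  rw [← Finset.sum_div]
  refine div_le_div_of_nonneg_right ?_ hl.le
  rw [Finset.sum_comm]
  have h3 : ∀ u : Bool, ∑ S ∈ C, co f u S ^ 2 / pr f u * G (1 - 2 * ε)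
      ≤ (1 - pr f u) * G (1 - 2 * ε) := by
    intro u
    rw [← Finset.sum_mul, ← Finset.sum_div]
    refine mul_le_mul_of_nonneg_right ?_ hG
    have h4 : ∑ S ∈ C, co f u S ^ 2 ≤ pr f u - pr f u ^ 2 := by
      refine le_trans ?_ (sum_co_sq f u)
      refine Finset.sum_le_sum_of_subset_of_nonneg ?_ (fun S _ _ => sq_nonneg _)
      intro S hS
      exact Finset.mem_filter.2 ⟨Finset.mem_univ _, hC S hS⟩
    rcases (pr_nonneg f u).eq_or_lt with hp | hp
    · rw [← hp]; simp
    · rw [div_le_iff₀ hp]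
      nlinarith
  refine (Finset.sum_le_sum (fun u _ => h3 u)).trans ?_
  rw [← Finset.sum_mul, Finset.sum_sub_distrib, sum_pr]
  simp
  linarith

/-- For every Boolean function `f` (balanced or not) and every `ε ∈ [0,1/2]`, the mutual
informations between `f(X)` and the parities `∏_{i ∈ S} Y_i` of the noisy vector, summed over all
nonempty `S`, are at most `1 - h2 ε`; in particular so is `∑_i I(f(X); Y_i)`. -/
theorem result (n : ℕ) (f : (Fin n → Bool) → Bool) (ε : ℝ) (h0 : 0 ≤ ε) (h1 : ε ≤ 1 / 2) :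
    (∑ S ∈ Finset.univ.filter (fun S : Finset (Fin n) => S.Nonempty),
        mutualInfo (joint f ε S) ≤ 1 - h2 ε) ∧
    (∑ i : Fin n, mutualInfo (joint f ε {i}) ≤ 1 - h2 ε) := by
  constructor
  · exact main f h0 h1 _ (fun S hS => (Finset.mem_filter.1 hS).2)
  · have := main f h0 h1 (Finset.univ.image (fun i : Fin n => ({i} : Finset (Fin n))))
      (by
        intro S hS
        obtain ⟨i, _, rfl⟩ := Finset.mem_image.1 hS
        exact Finset.singleton_nonempty i)
    rwa [Finset.sum_image (fun i _ j _ h => Finset.singleton_injective h)] at this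

end Vale.Agent.Results.P322.AllParities
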